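import Mathlib

/-!
# Jacobsthal's function: basic definitions and tools (P013)
-/

namespace Vale.Agent.Lib.P013

open Finset

/-- `CoprimeWindow n m`: every block of `m` consecutive integers (arbitrary integer starting
point `a`) contains an integer coprime to `n`. -/
def CoprimeWindow (n m : ℕ) : Prop :=
  ∀ a : ℤ, ∃ i : ℕ, i < m ∧ IsCoprime (a + (i : ℤ)) (n : ℤ)

/-- Jacobsthal's function `j(n)`: the least positive integer `m` such that every set of `m`
consecutive integers contains an integer coprime to `n`. -/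
noncomputable def jacobsthal (n : ℕ) : ℕ :=
  sInf {m : ℕ | 0 < m ∧ CoprimeWindow n m}

/-- Natural-number version of the window property. -/
def NatWindow (n m : ℕ) : Prop :=
  ∀ a : ℕ, ∃ i : ℕ, i < m ∧ Nat.Coprime (a + i) n

theorem coprimeWindow_iff_natWindow {n : ℕ} (hn : 0 < n) (m : ℕ) :
    CoprimeWindow n m ↔ NatWindow n m := by
  constructor
  · intro h a
    obtain ⟨i, hi, hc⟩ := h (a : ℤ)
    refine ⟨i, hi, ?_⟩
    have : ((a : ℤ) + (i : ℤ)) = ((a + i : ℕ) : ℤ) := by push_cast; ring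
    rw [this] at hc
    exact Nat.isCoprime_iff_coprime.mp hc
  · intro h a
    -- shift `a` by a multiple of `n` to make it nonnegative
    have hshift : (0 : ℤ) ≤ a + (a.natAbs : ℤ) * (n : ℤ) := by
      have h1 : (1 : ℤ) ≤ (n : ℤ) := by exact_mod_cast hn
      have h2 : -((a.natAbs : ℤ)) ≤ a := by
        have h0 : -a ≤ ((-a).natAbs : ℤ) := Int.le_natAbs
        rw [Int.natAbs_neg] at h0
        linarith
      have h3 : (0 : ℤ) ≤ (a.natAbs : ℤ) := Int.natCast_nonneg _
      nlinarith
    obtain ⟨b, hb⟩ := Int.eq_ofNat_of_zero_le hshift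
    obtain ⟨i, hi, hc⟩ := h b
    refine ⟨i, hi, ?_⟩
    have hc' : IsCoprime (((b + i : ℕ) : ℤ)) (n : ℤ) := Nat.isCoprime_iff_coprime.mpr hc
    have e : (((b + i : ℕ) : ℤ)) = (a + (i : ℤ)) + (a.natAbs : ℤ) * (n : ℤ) := by
      rw [Nat.cast_add, ← hb]
      ring
    rw [e] at hc'
    exact (IsCoprime.add_mul_right_left_iff).mp hc'

/-- Any `n ≥ 1` consecutive naturals contain one coprime to `n`. -/
theorem natWindow_self {n : ℕ} (hn : 0 < n) : NatWindow n n := by
  intro a
  refine ⟨(1 + n - a % n) % n, Nat.mod_lt _ hn, ?_⟩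
  have ha : a % n < n := Nat.mod_lt _ hn
  have h1 : a + (1 + n - a % n) % n ≡ a % n + (1 + n - a % n) [MOD n] :=
    Nat.ModEq.add (Nat.mod_modEq a n).symm (Nat.mod_modEq _ n)
  have h2 : a % n + (1 + n - a % n) = 1 + n := by omega
  rw [h2] at h1
  have h3 : 1 + n ≡ 1 [MOD n] := by
    simp [Nat.ModEq]
  have h4 := (h1.trans h3).gcd_eq
  unfold Nat.Coprime
  rw [h4]
  simp

theorem jacobsthal_set_nonempty {n : ℕ} (hn : 0 < n) :
    {m : ℕ | 0 < m ∧ CoprimeWindow n m}.Nonempty :=
  ⟨n, hn, (coprimeWindow_iff_natWindow hn n).mpr (natWindow_self hn)⟩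

theorem jacobsthal_spec {n : ℕ} (hn : 0 < n) :
    0 < jacobsthal n ∧ NatWindow n (jacobsthal n) := by
  have h := Nat.sInf_mem (jacobsthal_set_nonempty hn)
  exact ⟨h.1, (coprimeWindow_iff_natWindow hn _).mp h.2⟩

theorem jacobsthal_pos {n : ℕ} (hn : 0 < n) : 0 < jacobsthal n := (jacobsthal_spec hn).1

/-- Upper bound tool. -/
theorem jacobsthal_le {n m : ℕ} (hn : 0 < n) (hm : 0 < m) (h : NatWindow n m) :
    jacobsthal n ≤ m :=
  Nat.sInf_le ⟨hm, (coprimeWindow_iff_natWindow hn m).mpr h⟩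

/-- Lower bound tool: a run of `m` consecutive naturals none coprime to `n` forces
`m < j(n)`. -/
theorem lt_jacobsthal {n m : ℕ} (hn : 0 < n) (a : ℕ)
    (h : ∀ i : ℕ, i < m → ¬ Nat.Coprime (a + i) n) : m < jacobsthal n := by
  by_contra hcon
  have hle : jacobsthal n ≤ m := Nat.le_of_not_lt hcon
  obtain ⟨i, hi, hc⟩ := (jacobsthal_spec hn).2 a
  exact h i (lt_of_lt_of_le hi hle) hc

/-- A number is coprime to `n` iff no prime factor of `n` divides it. -/
theorem coprime_iff_forall_primeFactors {n : ℕ} (hn : 0 < n) (x : ℕ) :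
    Nat.Coprime x n ↔ ∀ p ∈ n.primeFactors, ¬ p ∣ x := by
  constructor
  · intro h p hp hpx
    have hp' := Nat.prime_of_mem_primeFactors hp
    have hpn := Nat.dvd_of_mem_primeFactors hp
    have : p ∣ Nat.gcd x n := Nat.dvd_gcd hpx hpn
    rw [h] at this
    exact hp'.one_lt.ne' (Nat.dvd_one.mp this)
  · intro h
    by_contra hcon
    obtain ⟨p, hp, hpd⟩ := Nat.exists_prime_and_dvd hcon
    have hpx : p ∣ x := hpd.trans (Nat.gcd_dvd_left x n)
    have hpn : p ∣ n := hpd.trans (Nat.gcd_dvd_right x n)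
    exact h p (Nat.mem_primeFactors.mpr ⟨hp, hpn, hn.ne'⟩) hpx

/-- Chinese remainder theorem over the prime factors of `n`: for any assignment `pos` of
offsets to primes there is `x` with `q ∣ x + pos q` for every prime factor `q` of `n`. -/
theorem exists_crt (n : ℕ) (pos : ℕ → ℕ) :
    ∃ x : ℕ, ∀ q ∈ n.primeFactors, q ∣ x + pos q := by
  have hs : ∀ q ∈ n.primeFactors, (id q : ℕ) ≠ 0 := fun q hq =>
    (Nat.prime_of_mem_primeFactors hq).ne_zero
  have hp : (n.primeFactors : Set ℕ).Pairwise (Function.onFun Nat.Coprime id) := by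
    intro p hp q hq hpq
    exact (Nat.coprime_primes (Nat.prime_of_mem_primeFactors hp)
      (Nat.prime_of_mem_primeFactors hq)).mpr hpq
  obtain ⟨x, hx⟩ := Nat.chineseRemainderOfFinset (fun q => (q - 1) * pos q) id n.primeFactors hs hp
  refine ⟨x, fun q hq => ?_⟩
  have hq1 : 1 ≤ q := (Nat.prime_of_mem_primeFactors hq).one_lt.le
  have h1 : x + pos q ≡ (q - 1) * pos q + pos q [MOD q] := Nat.ModEq.add_right _ (hx q hq)
  have h2 : (q - 1) * pos q + pos q = q * pos q := by
    have : (q - 1) * pos q + pos q = (q - 1 + 1) * pos q := by ring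
    rw [this, Nat.sub_add_cancel hq1]
  rw [h2] at h1
  have h3 : q * pos q ≡ 0 [MOD q] := by
    simp [Nat.ModEq]
  exact (Nat.modEq_zero_iff_dvd).mp (h1.trans h3)

/-- Counting multiples of `p` in a window: at most `m / p + 1`. -/
theorem card_filter_dvd_le (p a m : ℕ) :
    ((Finset.range m).filter (fun i => p ∣ a + i)).card ≤ m / p + 1 := by
  have hmap : ∀ i ∈ (Finset.range m).filter (fun i => p ∣ a + i), i / p ∈ Finset.range (m / p + 1) := by
    intro i hi
    rw [Finset.mem_filter, Finset.mem_range] at hi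
    rw [Finset.mem_range]
    exact Nat.lt_succ_of_le (Nat.div_le_div_right hi.1.le)
  refine (Finset.card_le_card_of_injOn (fun i => i / p) hmap ?_).trans (by simp)
  intro i hi i' hi' hdiv
  rw [Finset.mem_coe, Finset.mem_filter, Finset.mem_range] at hi hi'
  simp only at hdiv
  -- both i and i' lie in the same block of length p and are congruent mod p
  have hmod : i % p = i' % p := by
    have h1 : (a + i) % p = 0 := Nat.mod_eq_zero_of_dvd hi.2
    have h2 : (a + i') % p = 0 := Nat.mod_eq_zero_of_dvd hi'.2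
    have h3 : a + i ≡ a + i' [MOD p] := by
      unfold Nat.ModEq
      rw [h1, h2]
    exact Nat.ModEq.add_left_cancel' a h3
  have e1 := Nat.div_add_mod i p
  have e2 := Nat.div_add_mod i' p
  rw [hdiv, hmod] at e1
  omega

end Vale.Agent.Lib.P013
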