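import Vale.Agent.Lib.P013.Ord

/-!
# Exact value of Jacobsthal's function when the cofactor has only large prime factors (P013)
-/

namespace Vale.Agent.Lib.P013

open Finset

/-- A prime `p ≥ m` divides at most one of `m` consecutive naturals. -/
theorem card_filter_dvd_le_one (p x m : ℕ) (hp : m ≤ p) :
    ((Finset.range m).filter (fun i => p ∣ x + i)).card ≤ 1 := by
  rw [Finset.card_le_one]
  intro i hi i' hi'
  rw [Finset.mem_filter, Finset.mem_range] at hi hi'
  rcases Nat.lt_trichotomy i i' with hlt | heq | hgt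
  · exfalso
    have hd : p ∣ (x + i') - (x + i) := Nat.dvd_sub hi'.2 hi.2
    have hpos : 0 < (x + i') - (x + i) := by omega
    have := Nat.le_of_dvd hpos hd
    omega
  · exact heq
  · exfalso
    have hd : p ∣ (x + i) - (x + i') := Nat.dvd_sub hi.2 hi'.2
    have hpos : 0 < (x + i) - (x + i') := by omega
    have := Nat.le_of_dvd hpos hd
    omega

/-- Upper bound: if every prime factor of `b` is at least `j_t(a)` with `t = ω(b)`, then
`j(a * b) ≤ j_t(a)`. -/
theorem jacobsthal_mul_le_ord {a b : ℕ} (ha : 0 < a) (hb : 0 < b)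
    (hlarge : ∀ p ∈ b.primeFactors, jacobsthalOrd a b.primeFactors.card ≤ p) :
    jacobsthal (a * b) ≤ jacobsthalOrd a b.primeFactors.card := by
  classical
  set m := jacobsthalOrd a b.primeFactors.card with hm
  refine jacobsthal_le (Nat.mul_pos ha hb) (jacobsthalOrd_pos ha _) (fun x => ?_)
  set S := (Finset.range m).filter (fun i => Nat.Coprime (x + i) a) with hS
  set D := b.primeFactors.biUnion
    (fun p => (Finset.range m).filter (fun i => p ∣ x + i)) with hD
  have hScard : b.primeFactors.card < S.card := jacobsthalOrd_spec ha _ x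
  have hDcard : D.card ≤ b.primeFactors.card := by
    refine Finset.card_biUnion_le.trans ?_
    have : ∑ p ∈ b.primeFactors, ((Finset.range m).filter (fun i => p ∣ x + i)).card ≤
        ∑ _p ∈ b.primeFactors, 1 :=
      Finset.sum_le_sum (fun p hp => card_filter_dvd_le_one p x m (hlarge p hp))
    simpa using this
  have hlt : D.card < S.card := lt_of_le_of_lt hDcard hScard
  have hex : ∃ i ∈ S, i ∉ D := by
    by_contra hcon
    push Not at hcon
    have hsub : S ⊆ D := fun i hi => hcon i hi
    exact absurd (Finset.card_le_card hsub) (not_le.mpr hlt)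
  obtain ⟨i, hiS, hiD⟩ := hex
  rw [hS, Finset.mem_filter, Finset.mem_range] at hiS
  refine ⟨i, hiS.1, ?_⟩
  refine Nat.Coprime.mul_right hiS.2 ?_
  rw [coprime_iff_forall_primeFactors hb]
  intro p hp hpd
  apply hiD
  rw [hD, Finset.mem_biUnion]
  exact ⟨p, hp, by rw [Finset.mem_filter, Finset.mem_range]; exact ⟨hiS.1, hpd⟩⟩

/-- Lower bound, valid for all coprime `a`, `b`: `j_t(a) ≤ j(a * b)` with `t = ω(b)`. -/
theorem ord_le_jacobsthal_mul {a b : ℕ} (ha : 0 < a) (hb : 0 < b) (hab : Nat.Coprime a b) :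
    jacobsthalOrd a b.primeFactors.card ≤ jacobsthal (a * b) := by
  classical
  set t := b.primeFactors.card with ht
  set m := jacobsthalOrd a t with hm
  have hmpos : 0 < m := jacobsthalOrd_pos ha t
  -- a window of length m - 1 with at most t integers coprime to a
  obtain ⟨x, hx⟩ := exists_window_of_lt ha (t := t) (m := m - 1) (by omega)
  set F := (Finset.range (m - 1)).filter (fun i => Nat.Coprime (x + i) a) with hF
  have hFcard : F.card ≤ t := hx
  -- enumerate F and the prime factors of b
  let eF := F.equivFin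
  let eP := b.primeFactors.equivFin
  let pos : ℕ → ℕ := fun q =>
    if hq : q ∈ b.primeFactors then
      (if hidx : (eP ⟨q, hq⟩ : ℕ) < F.card then (eF.symm ⟨(eP ⟨q, hq⟩ : ℕ), hidx⟩ : ℕ) else 0)
    else 0
  obtain ⟨z, hz⟩ := exists_crt b pos
  -- combine with the residue of x modulo a
  set B := ∏ q ∈ b.primeFactors, q with hB
  have hBb : B ∣ b := Nat.prod_primeFactors_dvd b
  have hcop : Nat.Coprime a B := Nat.Coprime.coprime_dvd_right hBb hab
  obtain ⟨y, hya, hyB⟩ := Nat.chineseRemainder hcop x z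
  have hyq : ∀ q ∈ b.primeFactors, q ∣ y + pos q := by
    intro q hq
    have hqB : q ∣ B := Finset.dvd_prod_of_mem (fun q => q) hq
    have h1 : y ≡ z [MOD q] := hyB.of_dvd hqB
    have h2 : y + pos q ≡ z + pos q [MOD q] := Nat.ModEq.add_right _ h1
    have h3 : z + pos q ≡ 0 [MOD q] := (Nat.modEq_zero_iff_dvd).mpr (hz q hq)
    exact (Nat.modEq_zero_iff_dvd).mp (h2.trans h3)
  have hycop : ∀ i : ℕ, Nat.Coprime (y + i) a ↔ Nat.Coprime (x + i) a := by
    intro i
    have h1 : y + i ≡ x + i [MOD a] := Nat.ModEq.add_right _ hya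
    unfold Nat.Coprime
    rw [h1.gcd_eq]
  -- every y + i, i < m - 1, fails to be coprime to a * b
  have hrun : ∀ i : ℕ, i < m - 1 → ¬ Nat.Coprime (y + i) (a * b) := by
    intro i hi hc
    have hca : Nat.Coprime (y + i) a := Nat.Coprime.coprime_mul_right_right hc
    have hcb : Nat.Coprime (y + i) b := Nat.Coprime.coprime_mul_left_right hc
    have hiF : i ∈ F := by
      rw [hF, Finset.mem_filter, Finset.mem_range]
      exact ⟨hi, (hycop i).mp hca⟩
    -- the prime assigned to i
    let idx : Fin F.card := eF ⟨i, hiF⟩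
    let q : b.primeFactors := eP.symm (Fin.castLE hFcard idx)
    have hposq : pos (q : ℕ) = i := by
      simp only [pos]
      rw [dif_pos q.2]
      have h1 : eP ⟨(q : ℕ), q.2⟩ = Fin.castLE hFcard idx := by
        simp [q]
      have h2 : ((eP ⟨(q : ℕ), q.2⟩ : Fin t) : ℕ) = (idx : ℕ) := by
        rw [h1]; rfl
      rw [dif_pos (by rw [h2]; exact idx.2)]
      have h3 : (⟨((eP ⟨(q : ℕ), q.2⟩ : Fin t) : ℕ), by rw [h2]; exact idx.2⟩ : Fin F.card) = idx := by
        apply Fin.ext
        exact h2
      rw [h3]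
      simp [idx]
    have hdvd := hyq (q : ℕ) q.2
    rw [hposq] at hdvd
    exact (coprime_iff_forall_primeFactors hb (y + i)).mp hcb (q : ℕ) q.2 hdvd
  have := lt_jacobsthal (Nat.mul_pos ha hb) y hrun
  omega

/-- Exact formula. -/
theorem jacobsthal_mul_eq_ord {a b : ℕ} (ha : 0 < a) (hb : 0 < b) (hab : Nat.Coprime a b)
    (hlarge : ∀ p ∈ b.primeFactors, jacobsthalOrd a b.primeFactors.card ≤ p) :
    jacobsthal (a * b) = jacobsthalOrd a b.primeFactors.card :=
  le_antisymm (jacobsthal_mul_le_ord ha hb hlarge) (ord_le_jacobsthal_mul ha hb hab)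

end Vale.Agent.Lib.P013
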