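import Vale.Agent.Lib.P013.Basic

/-!
# The minimal value of Jacobsthal's function (P013)
-/

namespace Vale.Agent.Lib.P013

open Finset

/-- If every one of the `m` consecutive naturals `x, ..., x + m - 1` is divisible by a prime
factor of `n`, then `m < j(n)`. -/
theorem lt_jacobsthal_of_cover {n m : ℕ} (hn : 0 < n) (x : ℕ)
    (h : ∀ i : ℕ, i < m → ∃ q ∈ n.primeFactors, q ∣ x + i) : m < jacobsthal n := by
  refine lt_jacobsthal hn x (fun i hi hc => ?_)
  obtain ⟨q, hq, hqd⟩ := h i hi
  exact (coprime_iff_forall_primeFactors hn (x + i)).mp hc q hq hqd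

/-- The classical lower bound `ω(n) + 1 ≤ j(n)`. -/
theorem card_primeFactors_lt_jacobsthal {n : ℕ} (hn : 0 < n) :
    n.primeFactors.card < jacobsthal n := by
  classical
  -- enumerate the prime factors
  let e := n.primeFactors.equivFin
  let pos : ℕ → ℕ := fun q => if hq : q ∈ n.primeFactors then (e ⟨q, hq⟩ : ℕ) else 0
  obtain ⟨x, hx⟩ := exists_crt n pos
  refine lt_jacobsthal_of_cover hn x (fun i hi => ?_)
  refine ⟨(e.symm ⟨i, hi⟩ : ℕ), (e.symm ⟨i, hi⟩).2, ?_⟩
  have h := hx (e.symm ⟨i, hi⟩ : ℕ) (e.symm ⟨i, hi⟩).2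
  have hpos : pos (e.symm ⟨i, hi⟩ : ℕ) = i := by
    simp only [pos]
    rw [dif_pos (e.symm ⟨i, hi⟩).2]
    simp
  rw [hpos] at h
  exact h

/-- If all prime factors of `n` exceed `ω(n)`, then `j(n) ≤ ω(n) + 1`. -/
theorem jacobsthal_le_of_large_primes {n : ℕ} (hn : 0 < n)
    (h : ∀ p ∈ n.primeFactors, n.primeFactors.card < p) :
    jacobsthal n ≤ n.primeFactors.card + 1 := by
  classical
  refine jacobsthal_le hn (Nat.succ_pos _) (fun a => ?_)
  by_contra hcon
  push Not at hcon
  -- every i < k+1 has a prime factor of n dividing a + i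
  have hex : ∀ i : ℕ, i ∈ Finset.range (n.primeFactors.card + 1) →
      ∃ q, q ∈ n.primeFactors ∧ q ∣ a + i := by
    intro i hi
    have hnc := hcon i (Finset.mem_range.mp hi)
    by_contra hno
    push Not at hno
    exact hnc ((coprime_iff_forall_primeFactors hn (a + i)).mpr hno)
  choose! f hf using hex
  have hinj : Set.InjOn f (Finset.range (n.primeFactors.card + 1) : Set ℕ) := by
    intro i hi i' hi' hff
    have hi1 := Finset.mem_coe.mp hi
    have hi1' := Finset.mem_coe.mp hi'
    have hq := hf i hi1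
    have hq' := hf i' hi1'
    rw [← hff] at hq'
    have hlt := h (f i) hq.1
    have hi2 := Finset.mem_range.mp hi1
    have hi2' := Finset.mem_range.mp hi1'
    -- f i divides both a + i and a + i'
    rcases Nat.lt_trichotomy i i' with hlt' | heq | hgt
    · exfalso
      have hd : f i ∣ (a + i') - (a + i) := Nat.dvd_sub hq'.2 hq.2
      have hpos : 0 < (a + i') - (a + i) := by omega
      have := Nat.le_of_dvd hpos hd
      omega
    · exact heq
    · exfalso
      have hd : f i ∣ (a + i) - (a + i') := Nat.dvd_sub hq.2 hq'.2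
      have hpos : 0 < (a + i) - (a + i') := by omega
      have := Nat.le_of_dvd hpos hd
      omega
  have hcard := Finset.card_le_card_of_injOn f (fun i hi => (hf i hi).1) hinj
  simp at hcard

/-- If some prime factor `p` of `n` satisfies `p ≤ ω(n)`, then `ω(n) + 1 < j(n)`. -/
theorem succ_card_lt_jacobsthal_of_small_prime {n : ℕ} (hn : 0 < n) {p : ℕ}
    (hp : p ∈ n.primeFactors) (hpk : p ≤ n.primeFactors.card) :
    n.primeFactors.card + 1 < jacobsthal n := by
  classical
  have hp0 : p ≠ 0 := (Nat.prime_of_mem_primeFactors hp).ne_zero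
  -- the positions other than 0 and p
  let T : Finset ℕ := ((Finset.range (n.primeFactors.card + 1)).erase 0).erase p
  have hcardT : (n.primeFactors.erase p).card = T.card := by
    have h1 : (n.primeFactors.erase p).card = n.primeFactors.card - 1 :=
      Finset.card_erase_of_mem hp
    have h0 : (0 : ℕ) ∈ Finset.range (n.primeFactors.card + 1) := by simp
    have h2 : ((Finset.range (n.primeFactors.card + 1)).erase 0).card = n.primeFactors.card := by
      rw [Finset.card_erase_of_mem h0]; simp
    have hpm : p ∈ (Finset.range (n.primeFactors.card + 1)).erase 0 := by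
      rw [Finset.mem_erase, Finset.mem_range]
      exact ⟨hp0, by omega⟩
    have h3 : T.card = n.primeFactors.card - 1 := by
      simp only [T]
      rw [Finset.card_erase_of_mem hpm, h2]
    rw [h1, h3]
  let e := Finset.equivOfCardEq hcardT
  let pos : ℕ → ℕ := fun q =>
    if hq : q ∈ n.primeFactors.erase p then (e ⟨q, hq⟩ : ℕ) else 0
  obtain ⟨x, hx⟩ := exists_crt n pos
  have hposp : pos p = 0 := by
    simp only [pos]
    rw [dif_neg (by simp)]
  have hpx : p ∣ x := by
    have := hx p hp
    rw [hposp] at this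
    simpa using this
  refine lt_jacobsthal_of_cover hn x (fun i hi => ?_)
  by_cases hi0 : i = 0
  · exact ⟨p, hp, by rw [hi0]; simpa using hpx⟩
  by_cases hip : i = p
  · exact ⟨p, hp, by rw [hip]; exact Dvd.dvd.add hpx (dvd_refl p)⟩
  · have hiT : i ∈ T := by
      simp only [T]
      rw [Finset.mem_erase, Finset.mem_erase, Finset.mem_range]
      exact ⟨hip, hi0, hi⟩
    have hmem : (e.symm ⟨i, hiT⟩ : ℕ) ∈ n.primeFactors.erase p := (e.symm ⟨i, hiT⟩).2
    refine ⟨(e.symm ⟨i, hiT⟩ : ℕ), Finset.mem_of_mem_erase hmem, ?_⟩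
    have h := hx (e.symm ⟨i, hiT⟩ : ℕ) (Finset.mem_of_mem_erase hmem)
    have hpos : pos (e.symm ⟨i, hiT⟩ : ℕ) = i := by
      simp only [pos]
      rw [dif_pos hmem]
      simp
    rw [hpos] at h
    exact h

end Vale.Agent.Lib.P013
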