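import Vale.Agent.Lib.P013.Basic

/-!
# Higher-order Jacobsthal function and integers with large prime factors (P013)
-/

namespace Vale.Agent.Lib.P013

open Finset

/-- `ManyCoprimeWindow n t m`: every block of `m` consecutive integers contains at least
`t + 1` integers coprime to `n`. -/
def ManyCoprimeWindow (n t m : ℕ) : Prop :=
  ∀ a : ℤ, ∃ S : Finset ℕ, S.card = t + 1 ∧
    ∀ i ∈ S, i < m ∧ IsCoprime (a + (i : ℤ)) (n : ℤ)

/-- The order-`t` Jacobsthal function `j_t(n)`: the least `m` such that every `m` consecutive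
integers contain at least `t + 1` integers coprime to `n`.  (`j_0 = j`.) -/
noncomputable def jacobsthalOrd (n t : ℕ) : ℕ :=
  sInf {m : ℕ | ManyCoprimeWindow n t m}

/-- The number of `i < m` with `x + i` coprime to `n`. -/
def coprimeCount (n x m : ℕ) : ℕ :=
  ((Finset.range m).filter (fun i => Nat.Coprime (x + i) n)).card

/-- Natural-number version. -/
def NatMany (n t m : ℕ) : Prop := ∀ x : ℕ, t < coprimeCount n x m

theorem exists_nat_shift {n : ℕ} (hn : 0 < n) (a : ℤ) :
    ∃ b : ℕ, ∀ i : ℕ, IsCoprime (a + (i : ℤ)) (n : ℤ) ↔ Nat.Coprime (b + i) n := by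
  have hshift : (0 : ℤ) ≤ a + (a.natAbs : ℤ) * (n : ℤ) := by
    have h1 : (1 : ℤ) ≤ (n : ℤ) := by exact_mod_cast hn
    have h2 : -((a.natAbs : ℤ)) ≤ a := by
      have h0 : -a ≤ ((-a).natAbs : ℤ) := Int.le_natAbs
      rw [Int.natAbs_neg] at h0
      linarith
    have h3 : (0 : ℤ) ≤ (a.natAbs : ℤ) := Int.natCast_nonneg _
    nlinarith
  obtain ⟨b, hb⟩ := Int.eq_ofNat_of_zero_le hshift
  refine ⟨b, fun i => ?_⟩
  have e : (((b + i : ℕ) : ℤ)) = (a + (i : ℤ)) + (a.natAbs : ℤ) * (n : ℤ) := by
    rw [Nat.cast_add, ← hb]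
    ring
  rw [← Nat.isCoprime_iff_coprime, e]
  exact (IsCoprime.add_mul_right_left_iff).symm

theorem manyCoprimeWindow_iff_natMany {n : ℕ} (hn : 0 < n) (t m : ℕ) :
    ManyCoprimeWindow n t m ↔ NatMany n t m := by
  constructor
  · intro h x
    obtain ⟨S, hS, hS'⟩ := h (x : ℤ)
    have hsub : S ⊆ (Finset.range m).filter (fun i => Nat.Coprime (x + i) n) := by
      intro i hi
      rw [Finset.mem_filter, Finset.mem_range]
      refine ⟨(hS' i hi).1, ?_⟩
      have hc := (hS' i hi).2
      have : ((x : ℤ) + (i : ℤ)) = ((x + i : ℕ) : ℤ) := by push_cast; ring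
      rw [this] at hc
      exact Nat.isCoprime_iff_coprime.mp hc
    have := Finset.card_le_card hsub
    unfold coprimeCount
    omega
  · intro h a
    obtain ⟨b, hb⟩ := exists_nat_shift hn a
    have hlt := h b
    unfold coprimeCount at hlt
    obtain ⟨S, hsub, hcard⟩ := Finset.exists_subset_card_eq (Nat.succ_le_of_lt hlt)
    refine ⟨S, hcard, fun i hi => ?_⟩
    have hi' := hsub hi
    rw [Finset.mem_filter, Finset.mem_range] at hi'
    exact ⟨hi'.1, (hb i).mpr hi'.2⟩

theorem coprimeCount_mono (n x : ℕ) {m m' : ℕ} (h : m ≤ m') :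
    coprimeCount n x m ≤ coprimeCount n x m' := by
  unfold coprimeCount
  apply Finset.card_le_card
  intro i hi
  rw [Finset.mem_filter, Finset.mem_range] at hi ⊢
  exact ⟨lt_of_lt_of_le hi.1 h, hi.2⟩

/-- Adding a full period `n` to the window adds exactly `φ(n)` coprime integers. -/
theorem coprimeCount_add_period (n x m : ℕ) :
    coprimeCount n x (m + n) = coprimeCount n x m + Nat.totient n := by
  classical
  unfold coprimeCount
  have hsplit : (Finset.range (m + n)).filter (fun i => Nat.Coprime (x + i) n) =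
      (Finset.range m).filter (fun i => Nat.Coprime (x + i) n) ∪
      (Finset.Ico m (m + n)).filter (fun i => Nat.Coprime (x + i) n) := by
    rw [← Finset.filter_union]
    congr 1
    ext i
    simp only [Finset.mem_range, Finset.mem_union, Finset.mem_Ico]
    omega
  have hdisj : Disjoint ((Finset.range m).filter (fun i => Nat.Coprime (x + i) n))
      ((Finset.Ico m (m + n)).filter (fun i => Nat.Coprime (x + i) n)) := by
    rw [Finset.disjoint_left]
    intro i hi hi'
    rw [Finset.mem_filter, Finset.mem_range] at hi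
    rw [Finset.mem_filter, Finset.mem_Ico] at hi'
    omega
  rw [hsplit, Finset.card_union_of_disjoint hdisj]
  congr 1
  -- the second block: translate by x
  have h2 : ((Finset.Ico m (m + n)).filter (fun i => Nat.Coprime (x + i) n)).card =
      ((Finset.Ico (x + m) (x + m + n)).filter (fun y => Nat.Coprime n y)).card := by
    refine Finset.card_bij (fun i _ => x + i) ?_ ?_ ?_
    · intro i hi
      rw [Finset.mem_filter, Finset.mem_Ico] at hi ⊢
      exact ⟨⟨by omega, by omega⟩, hi.2.symm⟩
    · intro i _ i' _ h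
      omega
    · intro y hy
      rw [Finset.mem_filter, Finset.mem_Ico] at hy
      refine ⟨y - x, ?_, by omega⟩
      rw [Finset.mem_filter, Finset.mem_Ico]
      refine ⟨⟨by omega, by omega⟩, ?_⟩
      have : x + (y - x) = y := by omega
      rw [this]
      exact hy.2.symm
  rw [h2]
  exact Nat.filter_coprime_Ico_eq_totient n (x + m)

theorem coprimeCount_mul_period (n x L : ℕ) :
    coprimeCount n x (n * L) = L * Nat.totient n := by
  induction L with
  | zero => simp [coprimeCount]
  | succ L ih =>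
    have : n * (L + 1) = n * L + n := by ring
    rw [this, coprimeCount_add_period, ih]
    ring

theorem natMany_period {n : ℕ} (hn : 0 < n) (t : ℕ) :
    NatMany n t (n * (t / Nat.totient n + 1)) := by
  intro x
  rw [coprimeCount_mul_period]
  have hφ : 0 < Nat.totient n := Nat.totient_pos.mpr hn
  exact Nat.lt_mul_of_div_lt (Nat.lt_succ_self _) hφ

theorem jacobsthalOrd_set_nonempty {n : ℕ} (hn : 0 < n) (t : ℕ) :
    {m : ℕ | ManyCoprimeWindow n t m}.Nonempty :=
  ⟨_, (manyCoprimeWindow_iff_natMany hn t _).mpr (natMany_period hn t)⟩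

theorem jacobsthalOrd_spec {n : ℕ} (hn : 0 < n) (t : ℕ) : NatMany n t (jacobsthalOrd n t) :=
  (manyCoprimeWindow_iff_natMany hn t _).mp (Nat.sInf_mem (jacobsthalOrd_set_nonempty hn t))

theorem jacobsthalOrd_le {n : ℕ} (hn : 0 < n) {t m : ℕ} (h : NatMany n t m) :
    jacobsthalOrd n t ≤ m :=
  Nat.sInf_le ((manyCoprimeWindow_iff_natMany hn t m).mpr h)

theorem jacobsthalOrd_le_period {n : ℕ} (hn : 0 < n) (t : ℕ) :
    jacobsthalOrd n t ≤ n * (t / Nat.totient n + 1) :=
  jacobsthalOrd_le hn (natMany_period hn t)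

theorem period_lt_jacobsthalOrd {n : ℕ} (hn : 0 < n) (t : ℕ) :
    n * (t / Nat.totient n) < jacobsthalOrd n t := by
  by_contra hcon
  have hle : jacobsthalOrd n t ≤ n * (t / Nat.totient n) := Nat.le_of_not_lt hcon
  have h1 := jacobsthalOrd_spec hn t 0
  have h2 := coprimeCount_mono n 0 hle
  rw [coprimeCount_mul_period] at h2
  have h3 : t / Nat.totient n * Nat.totient n ≤ t := Nat.div_mul_le_self t _
  omega

theorem jacobsthalOrd_pos {n : ℕ} (hn : 0 < n) (t : ℕ) : 0 < jacobsthalOrd n t :=
  lt_of_le_of_lt (Nat.zero_le _) (period_lt_jacobsthalOrd hn t)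

/-- Below `j_t(n)` some window has at most `t` integers coprime to `n`. -/
theorem exists_window_of_lt {n : ℕ} (hn : 0 < n) {t m : ℕ} (hm : m < jacobsthalOrd n t) :
    ∃ x : ℕ, coprimeCount n x m ≤ t := by
  by_contra hcon
  push Not at hcon
  exact absurd (jacobsthalOrd_le hn (fun x => hcon x)) (not_le.mpr hm)

end Vale.Agent.Lib.P013
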