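import Vale.Agent.Lib.P013.Basic

/-!
# Upper bounds for Jacobsthal's function when the large prime factors are sparse (P013)
-/

namespace Vale.Agent.Lib.P013

open Finset

/-- In a window of length `J * L`, where every `J` consecutive naturals contain one coprime
to `a`, there are at least `L` integers coprime to `a`. -/
theorem card_coprime_ge {a J : ℕ} (hJ : NatWindow a J) (x L : ℕ) :
    L ≤ ((Finset.range (J * L)).filter (fun i => Nat.Coprime (x + i) a)).card := by
  classical
  have hex : ∀ l : ℕ, ∃ i : ℕ, i < J ∧ Nat.Coprime (x + l * J + i) a := fun l => hJ (x + l * J)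
  choose f hf using hex
  have hmap : ∀ l ∈ Finset.range L,
      l * J + f l ∈ (Finset.range (J * L)).filter (fun i => Nat.Coprime (x + i) a) := by
    intro l hl
    rw [Finset.mem_range] at hl
    rw [Finset.mem_filter, Finset.mem_range]
    refine ⟨?_, ?_⟩
    · have h1 : l * J + f l < (l + 1) * J := by
        have := (hf l).1
        nlinarith
      have h2 : (l + 1) * J ≤ J * L := by
        rw [Nat.mul_comm J L]
        exact Nat.mul_le_mul_right J hl
      omega
    · have := (hf l).2
      rwa [Nat.add_assoc] at this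
  have hinj : Set.InjOn (fun l => l * J + f l) (Finset.range L : Set ℕ) := by
    intro l _ l' _ heq
    simp only at heq
    have h1 := (hf l).1
    have h2 := (hf l').1
    rcases Nat.lt_trichotomy l l' with hlt | heq' | hgt
    · exfalso
      have : (l + 1) * J ≤ l' * J := Nat.mul_le_mul_right J hlt
      nlinarith
    · exact heq'
    · exfalso
      have : (l' + 1) * J ≤ l * J := Nat.mul_le_mul_right J hgt
      nlinarith
  have := Finset.card_le_card_of_injOn (fun l => l * J + f l) hmap hinj
  simpa using this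

/-- Key window lemma: if every `J` consecutive naturals contain one coprime to `a`, and the
number `∑_{p ∣ b} (J * L / p + 1)` of potential multiples of prime factors of `b` is `< L`,
then every `J * L` consecutive naturals contain one coprime to `a * b`. -/
theorem natWindow_mul {a b J L : ℕ} (hb : 0 < b) (hJ : NatWindow a J)
    (hcount : ∑ p ∈ b.primeFactors, (J * L / p + 1) < L) :
    NatWindow (a * b) (J * L) := by
  classical
  intro x
  set S := (Finset.range (J * L)).filter (fun i => Nat.Coprime (x + i) a) with hS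
  set D := b.primeFactors.biUnion
    (fun p => (Finset.range (J * L)).filter (fun i => p ∣ x + i)) with hD
  have hScard : L ≤ S.card := card_coprime_ge hJ x L
  have hDcard : D.card < L := by
    refine lt_of_le_of_lt (Finset.card_biUnion_le.trans ?_) hcount
    exact Finset.sum_le_sum (fun p _ => card_filter_dvd_le p x (J * L))
  have hlt : D.card < S.card := lt_of_lt_of_le hDcard hScard
  -- an element of S not in D
  have hex : ∃ i ∈ S, i ∉ D := by
    by_contra hcon
    push Not at hcon
    have hsub : S ⊆ D := fun i hi => hcon i hi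
    exact absurd (Finset.card_le_card hsub) (not_le.mpr hlt)
  obtain ⟨i, hiS, hiD⟩ := hex
  rw [hS, Finset.mem_filter, Finset.mem_range] at hiS
  refine ⟨i, hiS.1, ?_⟩
  refine Nat.Coprime.mul_right hiS.2 ?_
  rw [coprime_iff_forall_primeFactors hb]
  intro p hp hpd
  apply hiD
  rw [hD, Finset.mem_biUnion]
  exact ⟨p, hp, by rw [Finset.mem_filter, Finset.mem_range]; exact ⟨hiS.1, hpd⟩⟩

/-- Real-number form of the counting hypothesis. -/
theorem count_lt_of_real {b J L : ℕ}
    (h : (J : ℝ) * L * (∑ p ∈ b.primeFactors, (1 : ℝ) / p) + b.primeFactors.card < L) :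
    ∑ p ∈ b.primeFactors, (J * L / p + 1) < L := by
  have h1 : ((∑ p ∈ b.primeFactors, (J * L / p + 1) : ℕ) : ℝ) ≤
      (J : ℝ) * L * (∑ p ∈ b.primeFactors, (1 : ℝ) / p) + b.primeFactors.card := by
    rw [Nat.cast_sum, Finset.mul_sum]
    have h2 : ((b.primeFactors.card : ℕ) : ℝ) = ∑ _p ∈ b.primeFactors, (1 : ℝ) := by simp
    rw [h2, ← Finset.sum_add_distrib]
    refine Finset.sum_le_sum (fun p _ => ?_)
    push_cast
    have h3 : (((J * L / p : ℕ)) : ℝ) ≤ ((J * L : ℕ) : ℝ) / (p : ℝ) := Nat.cast_div_le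
    push_cast at h3
    have h4 : (J : ℝ) * L * (1 / (p : ℝ)) = (J : ℝ) * L / p := by ring
    rw [h4]
    linarith
  have h5 : ((∑ p ∈ b.primeFactors, (J * L / p + 1) : ℕ) : ℝ) < (L : ℝ) := lt_of_le_of_lt h1 h
  exact_mod_cast h5

/-- The composition inequality: if `j(a) * ∑_{p ∣ b} 1/p < 1` then
`j(a * b) ≤ j(a) * (⌊ω(b) / (1 - j(a) * ∑_{p ∣ b} 1/p)⌋ + 1)`. -/
theorem jacobsthal_mul_le {a b : ℕ} (ha : 0 < a) (hb : 0 < b)
    (hs : (jacobsthal a : ℝ) * (∑ p ∈ b.primeFactors, (1 : ℝ) / p) < 1) :
    jacobsthal (a * b) ≤ jacobsthal a *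
      (⌊(b.primeFactors.card : ℝ) /
        (1 - (jacobsthal a : ℝ) * (∑ p ∈ b.primeFactors, (1 : ℝ) / p))⌋₊ + 1) := by
  set J := jacobsthal a with hJdef
  set s := ∑ p ∈ b.primeFactors, (1 : ℝ) / p with hsdef
  set k := b.primeFactors.card with hkdef
  set L := ⌊(k : ℝ) / (1 - (J : ℝ) * s)⌋₊ + 1 with hLdef
  have hJpos : 0 < J := jacobsthal_pos ha
  have hden : 0 < 1 - (J : ℝ) * s := by linarith
  have hL : (k : ℝ) / (1 - (J : ℝ) * s) < (L : ℝ) := by
    rw [hLdef]
    push_cast
    exact Nat.lt_floor_add_one _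
  have hL' : (k : ℝ) < (L : ℝ) * (1 - (J : ℝ) * s) := by
    rwa [div_lt_iff₀ hden] at hL
  have hcount : ∑ p ∈ b.primeFactors, (J * L / p + 1) < L := by
    apply count_lt_of_real
    nlinarith
  have hwin : NatWindow (a * b) (J * L) := natWindow_mul hb (jacobsthal_spec ha).2 hcount
  exact jacobsthal_le (Nat.mul_pos ha hb) (Nat.mul_pos hJpos (Nat.succ_pos _)) hwin

end Vale.Agent.Lib.P013
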